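import Crest.Agent.X261.Pole.K0
import Crest.Agent.X261.Pole2.Asy0
import Crest.Agent.X261.Pole2.Ene
import Crest.Agent.X261.Pole2.Vol

/-!
# Row 261, package POLE (helper59), file `AsyI`: the field `asy` with ONE constant
-/

set_option autoImplicit false
set_option linter.unusedSectionVars false

open Set Filter Topology

namespace Crest.Agent.X261.Pole

open Crest.Agent.R275.Geo Crest.Agent.X261.Top Crest.Agent.X261.Pole2 Crest.Agent.X261.BT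
open Crest.Agent.R281.Kp_487 (KP)

noncomputable section

variable {n p : ℕ} {M : Type} [TopologicalSpace M] {A : Atl n M}

/-- the constraints `F` are squeezed between round constraints of the tube: (F2), (F3) -/
def F23 (H : KP A) (T : Set M) (π : M → Cn p) (y : Cn p) (F : ℝ → ℝ → Set (M → ℝ)) : Prop :=
  ∃ C₀ r₀ s₁ : ℝ, 0 < r₀ ∧
    (∀ s ≥ s₁, ∀ h ≥ 0, ∀ f : M → ℝ,
      (∀ x ∈ T, ‖π x - y‖ ^ 2 ≤ Real.exp (C₀ - s) → f x ≤ -h - C₀) → f ∈ F s h) ∧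
    ∀ s ≥ s₁, ∀ h ≥ 0, ∀ f : M → ℝ, PP H f → (∀ x, f x ≤ 0) → f ∈ F s h →
      ∀ x ∈ T, ‖π x - y‖ ≤ r₀ → f x ≤ -h + C₀ +
        h / (s - C₀) * Real.log (max (Real.exp (s + C₀) * ‖π x - y‖ ^ 2) 1)

variable [MeasurableSpace M] [BorelSpace M] [Countable A.ι] [T2Space M] {H : KP A}

/-- ASYM at one centre -/
theorem asy_of_F23 (hH : H.Pos) (hS : Slow H) {T : Set M} {π : M → Cn p} {V : ℝ} {y : Cn p}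
    (h : TB A T π) (hp : 1 ≤ p) (hV : Vol H T π V) (hy : ∀ c > 0, FIN H T π y c)
    {Y : PF (lsOf hH hS)} (hF : F23 H T π y Y.F) : Y.Asy (V * k1 p) p := by
  obtain ⟨C₀, r₀, s₁, hr, F2, F3⟩ := hF
  refine PF.asy_of (asym_of hH hS (mul_nonneg (hV.nonneg (pos_semi hH) h hp) (k1_pos hp).le)
    (fun c hc => ?_) Y.F hr F2 F3)
  obtain ⟨W, r, a, s₀, K, hW⟩ := (hy c hc).exists_vf (pos_semi hH) h hp hc.le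
  exact ⟨W, r, a, s₀, K, hW, hW.energy hH h hp hV hc.le⟩

/-- the field `asy`, and the link of `k0` with the fibre volume of every tube -/
theorem asy_tube [PreconnectedSpace M] (hH : H.Pos) (hS : Slow H) {G : Type} [Group G]
    [MulAction G M] (𝒯 : Tube A G p) (hp : 1 ≤ p) (hpn : p ≤ n)
    (hfin : ∀ x₀ ∈ 𝒯.M0, ∀ x ∈ 𝒯.T x₀, x ∉ 𝒯.Bad → ∀ c > 0,
      FIN H (𝒯.T x₀) (𝒯.π x₀) (𝒯.π x₀ x) c)
    {κ : Type*} {O : κ → Set M} {Y : κ → M → PF (lsOf hH hS)} (hcov : ∀ x ∈ 𝒯.M0, ∃ C, x ∈ O C)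
    (h : ∀ x₀ ∈ 𝒯.M0, ∀ C, ∀ x ∈ O C, x ∈ 𝒯.T x₀ →
      F23 H (𝒯.T x₀) (𝒯.π x₀) (𝒯.π x₀ x) (Y C x).F) :
    ∃ k, 0 < k ∧ (∀ C, ∀ x ∈ O C, x ∈ 𝒯.M0 → x ∉ 𝒯.Bad → (Y C x).Asy k p) ∧
      ∀ x₀ ∈ 𝒯.M0, ∃ V, 0 ≤ V ∧ Vol H (𝒯.T x₀) (𝒯.π x₀) V ∧ k = V * k1 p := by
  have key : ∀ x₀ ∈ 𝒯.M0, ∃ V, 0 < V ∧ Vol H (𝒯.T x₀) (𝒯.π x₀) V ∧
      ∀ C, ∀ x ∈ O C, x ∈ 𝒯.T x₀ → x ∉ 𝒯.Bad → (Y C x).Asy (V * k1 p) p := fun x₀ h₀ => by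
    obtain ⟨V, V0, hV⟩ := (tb_of_tube 𝒯 h₀).exists_vol hH hp hpn
    exact ⟨V, V0, hV, fun C x h1 h2 h3 => asy_of_F23 hH hS (tb_of_tube 𝒯 h₀) hp hV
      (hfin x₀ h₀ x h2 h3) (h x₀ h₀ C x h1 h2)⟩
  obtain ⟨k, k0, hk⟩ := asy_all 𝒯 hcov fun x₀ h₀ => by
    obtain ⟨V, V0, -, hV⟩ := key x₀ h₀
    exact ⟨_, mul_pos V0 (k1_pos hp), hV⟩
  refine ⟨k, k0, hk, fun x₀ h₀ => ?_⟩
  obtain ⟨V, V0, hV, hV'⟩ := key x₀ h₀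
  obtain ⟨x, h1, h2⟩ := 𝒯.bad_thin.dense_compl.inter_open_nonempty _ (𝒯.T_opn x₀ h₀)
    ⟨x₀, 𝒯.T_mem x₀ h₀⟩
  obtain ⟨C, hC⟩ := hcov x (𝒯.T_sub x₀ h₀ h1)
  exact ⟨V, V0.le, hV, (hk C x hC (𝒯.T_sub x₀ h₀ h1) h2).unique (hV' C x hC h1 h2)⟩

end

end Crest.Agent.X261.Pole
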