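import Crest.Agent.X261.Pole.Plq
import Crest.Agent.X261.Two.Del

/-!
# Row 261, package POLE (helper59), file `Ray`: the bound (R)

A ray built from near optimal poles at the fixed point `y` is admissible for `del X Y` at every
point `x` with `‖x - y‖ ≤ e^{-s/2}`.
-/

set_option autoImplicit false

open Set Filter Topology Metric Finset

namespace Crest.Agent.X261.Pole

open Crest.Agent.X261.Two Crest.Agent.X261.BT
open Crest.Agent.R275.Geo
open Crest.Agent.R281.Kp_487 (KP)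

noncomputable section

section abs

variable {M : Type*} {S : LS M} {X Y : PF S} {k : ℝ} {p : ℕ}

theorem mc_mono (hk : 0 ≤ k) (p : ℕ) {c c' : ℝ} (hc : 0 ≤ c) (h : c ≤ c') :
    mc k p c ≤ mc k p c' := by
  unfold mc; gcongr

/-- near optimal poles at arbitrarily small radius -/
theorem exists_opt (hY : Y.Asy k p) {c ε : ℝ} (hc : 0 < c) (hε : 0 < ε) {R : Set (M → ℝ)}
    (h : ∀ᶠ s in atTop, ∀ f ∈ S.Q, f ∈ Y.F s (c * s) → f ∈ R) :
    ∃ G ∈ S.Q, Y.cst k p c G ≤ ε ∧ G ∈ R := by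
  obtain ⟨s, h1, h2, h3⟩ := (h.and ((eventually_gt_atTop Y.s0).and ((hY.tendsto0 hc
    S.zero_mem).eventually (gt_mem_nhds (lt_add_of_pos_right _ (half_pos hε)))))).exists
  obtain ⟨G, g1, -, g2, g3⟩ := (Y.cons s h2 (c * s)).near S.zero_mem (half_pos hε)
  refine ⟨G, g1, ?_, h1 G g1 g2⟩
  have := hY.dl_le_of_mem hc g1 h2 g2
  simp only [PF.Φ, PF.cst, sub_self, mul_zero, sub_zero] at h3 this ⊢
  linarith

/-- the ray -/
def rr (G : ℕ → M → ℝ) (d : ℝ) : ℕ → M → ℝ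
  | 0 => 0
  | i + 1 => G (i + 1) ⊔ fun x => rr G d i x - d

variable {G : ℕ → M → ℝ} {d : ℝ}

theorem rr_mem (hG : ∀ i, G i ∈ S.Q) (hd : 0 ≤ d) (i : ℕ) : rr G d i ∈ S.Q := by
  induction i with
  | zero => exact S.zero_mem
  | succ i ih => exact S.maxs_mem _ ih _ (hG _) d hd

theorem rr_le (i j : ℕ) (x : M) : rr G d i x ≤ rr G d (i + j) x + j * d := by
  induction j with
  | zero => simp
  | succ j ih =>
    have : rr G d (i + j) x - d ≤ rr G d (i + (j + 1)) x := le_max_right _ _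
    push_cast
    linarith

theorem le_rr {i : ℕ} (hi : 0 < i) : G i ≤ rr G d i := by
  obtain ⟨i, rfl⟩ := Nat.exists_eq_succ_of_ne_zero hi.ne'
  exact le_sup_left

theorem rr_F {s b : ℝ} (hs : X.s0 < s) (h0 : (0 : M → ℝ) ∈ X.F s (-b)) {N : ℕ}
    (hG : ∀ i, 0 < i → i ≤ N → G i ∈ X.F s (i * d - b)) {i : ℕ} (hi : i ≤ N) :
    rr G d i ∈ X.F s (i * d - b) := by
  induction i with
  | zero => simpa [rr] using h0
  | succ i ih =>
    refine (X.cons s hs _).sup _ (hG _ i.succ_pos hi) _ ?_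
    have := X.shift s hs _ (-d) _ (ih (by omega)) (fun x => rr G d i x - d) fun x => le_rfl
    rwa [show (i : ℝ) * d - b - -d = (i + 1 : ℕ) * d - b by push_cast; ring] at this

theorem D_rr (hY : Y.Asy k p) {δ s ε : ℝ} (hδ : 0 < δ) (hs : 0 ≤ s) (hG : ∀ i, G i ∈ S.Q)
    (hε : ∀ i : ℕ, 0 < i → Y.cst k p (i * δ) (G i) ≤ ε) (i : ℕ) :
    S.D (rr G (δ * s) i) ≤ i * ε + (kc k p (i * δ) + mc k p (i * δ) * δ) * s := by
  have hk := hY.k_nonneg
  have hd : 0 ≤ δ * s := by positivity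
  induction i with
  | zero =>
    have := kc_nonneg hk p (le_refl 0)
    have := mc_nonneg hk p (le_refl 0)
    simp only [rr, S.D_zero, Nat.cast_zero, zero_mul, zero_add]
    positivity
  | succ i ih =>
    have hc : (0 : ℝ) < (i + 1 : ℕ) * δ := by positivity
    have hw := rr_mem hG hd (i + 1)
    have h1 := lam_le hY hc hw hd
    have h2 := (hY.cst_anti hc (hG _) hw (le_rr i.succ_pos)).trans (hε _ i.succ_pos)
    have h3 := S.anti _ (rr_mem hG hd i) _ (sh_mem hw hd)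
      (le_sh hw hd (rr_mem hG hd i) fun x => by simpa using rr_le (G := G) (d := δ * s) i 1 x)
    have h4 := mul_le_mul_of_nonneg_right (kc_tangent hk p (c := i * δ) (c' := (i + 1 : ℕ) * δ)
      (by positivity) hc.le) hs
    rw [show ((i + 1 : ℕ) : ℝ) * δ - i * δ = δ by push_cast; ring] at h4
    rw [show ((i + 1 : ℕ) : ℝ) * ε = i * ε + ε by push_cast; ring]
    linarith

theorem ray_aux (hX : X.Asy k p) (hY : Y.Asy k p) {l : ℝ} (hl : 0 < l) {m : ℕ} (hm : 0 < m)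
    {s b : ℝ} (hsX : X.s0 < s) (hsY : Y.s0 < s) (hs : 0 ≤ s) (hb : 0 ≤ b)
    (h0X : (0 : M → ℝ) ∈ X.F s (-b)) (h0Y : (0 : M → ℝ) ∈ Y.F s (-b))
    (h : ∀ c, 0 < c → c ≤ l → ∀ᶠ s₂ in atTop, ∀ f ∈ S.Q, f ∈ Y.F s₂ (c * s₂) →
      f ∈ X.F s (c * s - b) ∧ f ∈ Y.F s (c * s - b)) {r : ℕ} (hr : 0 < r) {ε : ℝ} (hε : 0 < ε) :
    del X Y k p l m (l * s) ≤ mc k p l / m * (l * s) - Ph X k p l m +
      ((m + 1) * mc k p l * b - Y.dl k p l 0) + (mc k p l * l * s / r + m * (m * r + 1) * ε) := by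
  have hk := hY.k_nonneg
  have hm' : (0 : ℝ) < m := by exact_mod_cast hm
  have hr' : (0 : ℝ) < r := by exact_mod_cast hr
  set δ : ℝ := l / (m * r) with hδ
  have hδ0 : 0 < δ := by positivity
  have hN : ((m * r : ℕ) : ℝ) * δ = l := by rw [hδ]; push_cast; field_simp
  have hd : 0 ≤ δ * s := by positivity
  have hT : 0 ≤ l * s := by positivity
  have key : ∀ i : ℕ, ∃ G ∈ S.Q, 0 < i → Y.cst k p (i * δ) G ≤ ε ∧ (i ≤ m * r →
      G ∈ X.F s (i * (δ * s) - b) ∧ G ∈ Y.F s (i * (δ * s) - b)) := fun i => by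
    rcases i.eq_zero_or_pos with rfl | hi
    · exact ⟨0, S.zero_mem, fun h => absurd h (lt_irrefl _)⟩
    have hc : (0 : ℝ) < i * δ := by positivity
    obtain ⟨G, g1, g2, g3⟩ := exists_opt hY hc hε (R := {G | i ≤ m * r →
        G ∈ X.F s (i * (δ * s) - b) ∧ G ∈ Y.F s (i * (δ * s) - b)}) (by
      by_cases hi' : i ≤ m * r
      · filter_upwards [h _ hc (hN ▸ mul_le_mul_of_nonneg_right (by exact_mod_cast hi') hδ0.le)]
          with s₂ e f f1 f2 _
        rw [← mul_assoc]; exact e f f1 f2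
      · exact Eventually.of_forall fun _ _ _ _ h => absurd h hi')
    exact ⟨G, g1, fun _ => ⟨g2, g3⟩⟩
  choose G hG hG' using key
  have FX := fun i => rr_F (N := m * r) (i := i) hsX h0X fun i h1 h2 => ((hG' i h1).2 h2).1
  have FY := rr_F (N := m * r) hsY h0Y (fun i h1 h2 => ((hG' i h1).2 h2).2) le_rfl
  have DD := D_rr hY hδ0 hs hG fun i hi => (hG' i hi).1
  have ha := rr_mem hG hd (m * r)
  set a := rr G (δ * s) (m * r) with ha'
  have hadm : a ∈ Adm S (l * s) := ⟨ha, fun x => by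
    have := rr_le (G := G) (d := δ * s) 0 (m * r) x
    rw [zero_add, ← mul_assoc, hN] at this
    simp only [rr, Pi.zero_apply] at this
    linarith⟩
  have hj : ∀ j ∈ range m, Y.cst k p (lev l m j) (S.P 0 a (j * (l * s / m))) ≤ ε ∧
      X.cst k p (lev l m j) (S.P 0 a (j * (l * s / m))) ≤
        m * r * ε + mc k p l * (δ * s + b) - X.dl k p (lev l m j) 0 := fun j hj => by
    have hj := mem_range.1 hj
    obtain ⟨q, rfl⟩ : ∃ q, m = q + j := ⟨m - j, by omega⟩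
    have hq : 0 < q * r := Nat.mul_pos (by omega) hr
    have hqm : q * r ≤ (q + j) * r := Nat.mul_le_mul_right _ (by omega)
    have e1 : lev l (q + j) j = (q * r : ℕ) * δ := by
      rw [lev, hδ]; push_cast at hm' ⊢; field_simp; ring
    have hc := lev_pos hl hj
    have hcl := lev_le hl (q + j) j
    have ht := step_nonneg hT (q + j) j
    have hR := rr_mem hG hd (q * r)
    have h1 : rr G (δ * s) (q * r) ≤ S.P 0 a (j * (l * s / (q + j : ℕ))) :=
      le_sh ha ht hR fun x => by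
        have := rr_le (G := G) (d := δ * s) (q * r) (j * r) x
        rw [← add_mul] at this
        refine this.trans_eq (congrArg (a x + ·) ?_)
        rw [hδ]; push_cast; field_simp
    refine ⟨(hY.cst_anti hc (hG _) (sh_mem ha ht) ((le_rr hq).trans h1)).trans
      (e1 ▸ (hG' _ hq).1), (hX.cst_anti hc hR (sh_mem ha ht) h1).trans ?_⟩
    have h2 := hX.dl_le_of_mem hc hR hsX (FX _ hqm)
    have h3 := DD (q * r)
    rw [← mul_assoc, ← e1] at h2
    rw [← e1] at h3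
    have h4 := mul_le_mul_of_nonneg_right (mc_mono hk p hc.le hcl) (add_nonneg hd hb)
    have h5 : ((q * r : ℕ) : ℝ) * ε ≤ (q + j : ℕ) * r * ε :=
      mul_le_mul_of_nonneg_right (by exact_mod_cast hqm) hε.le
    unfold PF.cst
    linarith
  have e1 := sum_le_sum fun j h => (hj j h).1
  have e2 := sum_le_sum fun j h => (hj j h).2
  rw [sum_const, card_range, nsmul_eq_mul] at e1
  rw [sum_sub_distrib, sum_const, card_range, nsmul_eq_mul] at e2
  have e3 := hY.dl_le hl S.zero_mem hsY (l * s - b)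
  rw [← mul_assoc, hN] at FY
  have e4 : Y.Φ 0 s (l * s - b) ≤ S.D a := LS.dp_le ha (S.nonpos a ha) FY
  have e5 := mul_le_mul_of_nonneg_right (kap_le (p := p) hk hl hm) hT
  rw [add_mul, show kc k p l / l * (l * s) = kc k p l * s by field_simp] at e5
  have e6 := del_le hX hY hl hm hT hadm
  have e7 : m * (mc k p l * (δ * s)) = mc k p l * l * s / r := by rw [hδ]; field_simp
  unfold br Two.sc at e6
  unfold Ph
  linarith

/-- (R), abstract form -/
theorem ray_abs (hX : X.Asy k p) (hY : Y.Asy k p) {l : ℝ} (hl : 0 < l) {m : ℕ} (hm : 0 < m)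
    {s b : ℝ} (hsX : X.s0 < s) (hsY : Y.s0 < s) (hs : 0 ≤ s) (hb : 0 ≤ b)
    (h0X : (0 : M → ℝ) ∈ X.F s (-b)) (h0Y : (0 : M → ℝ) ∈ Y.F s (-b))
    (h : ∀ c, 0 < c → c ≤ l → ∀ᶠ s₂ in atTop, ∀ f ∈ S.Q, f ∈ Y.F s₂ (c * s₂) →
      f ∈ X.F s (c * s - b) ∧ f ∈ Y.F s (c * s - b)) :
    del X Y k p l m (l * s) ≤ mc k p l / m * (l * s) - Ph X k p l m +
      ((m + 1) * mc k p l * b - Y.dl k p l 0) := by
  refine le_of_forall_pos_le_add fun η hη => ?_
  obtain ⟨r, hr⟩ := exists_nat_gt (mc k p l * l * s / (η / 2))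
  have hμ := mc_nonneg hY.k_nonneg p hl.le
  have hr' : (0 : ℝ) < r := lt_of_le_of_lt (by positivity) hr
  have hm' : (0 : ℝ) < m := by exact_mod_cast hm
  have := ray_aux hX hY hl hm hsX hsY hs hb h0X h0Y h (r := r) (by exact_mod_cast hr')
    (ε := η / 2 / (m * (m * r + 1))) (by positivity)
  rw [mul_div_cancel₀ _ (by positivity)] at this
  rw [div_lt_comm₀ (by positivity) hr'] at hr
  linarith

end abs

namespace PCh

variable {n : ℕ} {M : Type} [TopologicalSpace M] {A : Atl n M} {p r : ℕ} {C : PCh A p r}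
  {H : KP A} {S : ES M}

theorem std_rad {y : Cn p} (hy : ‖y‖ ≤ 1) {s : ℝ} (hs : 2 ≤ s) :
    ‖y‖ + ‖rad s • (1 : Cn p →L[ℂ] Cn p)‖ ≤ 3 / 2 := by
  have := std hy
  have h2 : Real.exp (-s / 2) ≤ Real.exp (-2 / 2) := Real.exp_le_exp.2 (by linarith)
  rw [norm_smul, norm_rad]
  nlinarith [norm_nonneg (1 : Cn p →L[ℂ] Cn p)]

/-- (R) for any two pole families carried by the round constraints of a plaque chart -/
theorem ray' (hG : Geo S.toDS H) {X Y : PF S.ls} {x y : Cn p} (hx : ‖x‖ ≤ 1) (hy : ‖y‖ ≤ 1)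
    (hXF : ∀ s h, X.F s h = C.F H x (rad s • 1) h) (hYF : ∀ s h, Y.F s h = C.F H y (rad s • 1) h)
    {k : ℝ} (hX : X.Asy k p) (hY : Y.Asy k p) {l : ℝ} (hl : 0 < l) {m : ℕ} (hm : 0 < m) {s : ℝ}
    (hsX : X.s0 < s) (hsY : Y.s0 < s) (hs : 4 ≤ s) (hxy : ‖x - y‖ ≤ Real.exp (-s / 2)) :
    del X Y k p l m (l * s) ≤ mc k p l / m * (l * s) - Ph X k p l m +
      ((m + 1) * mc k p l * (4 * l + C.bd H) - Y.dl k p l 0) := by
  have hb := C.bd_nonneg H
  have h0 : ∀ z : Cn p, ‖z‖ ≤ 1 → (0 : M → ℝ) ∈ C.F H z (rad s • 1) (-(4 * l + C.bd H)) :=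
    fun z hz => F_mono (fun w hw => ⟨w, hw, rfl⟩) (by linarith)
      (mem_F_bd (std_rad hz (by linarith)) le_rfl)
  refine ray_abs hX hY hl hm hsX hsY (by linarith) (by linarith) (hXF _ _ ▸ h0 x hx)
    (hYF _ _ ▸ h0 y hy) fun c hc hcl => ?_
  filter_upwards [eventually_ge_atTop s] with s₂ h2 f hf hF
  rw [hYF] at hF
  rw [hXF, hYF]
  have key : ∀ s', 2 ≤ s' → s' ≤ s₂ →
      f ∈ C.F H y (rad s' • 1) (c * s' - (c * 2 + C.bd H)) := fun s' h3 h4 =>
    sch (hG.qp f hf) (S.nonpos f hf) (std hy)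
      (F_mono (fun w hw => ⟨w, hw, rfl⟩) (by linarith) hF) le_rfl h3 h4
  exact ⟨F_mono (fun w hw => ⟨w, hw, rfl⟩) (by linarith) (F_near (by rwa [norm_sub_rev])
      (key (s - 2) (by linarith) (by linarith))),
    F_mono (fun w hw => ⟨w, hw, rfl⟩) (by linarith) (key s (by linarith) h2)⟩

/-- (R), the shape of `EnP.Dat.ray` -/
theorem ray (hG : Geo S.toDS H) {y : Cn p} (hy : ‖y‖ ≤ 1) {k : ℝ} (hY : (C.pf1 hG hy).Asy k p)
    {l : ℝ} (hl : 0 < l) {m : ℕ} (hm : 0 < m) : ∃ C₀ : ℝ, ∀ᶠ s in atTop, ∀ (x : Cn p)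
      (hx : ‖x‖ ≤ 1), (C.pf1 hG hx).Asy k p → ‖x - y‖ ≤ Real.exp (-s / 2) →
      del (C.pf1 hG hx) (C.pf1 hG hy) k p l m (l * s) ≤
        mc k p l / m * (l * s) - Ph (C.pf1 hG hx) k p l m + C₀ := by
  refine ⟨_, (eventually_ge_atTop 4).mono fun s hs x hx hX hxy =>
    ray' hG hx hy (fun _ _ => rfl) (fun _ _ => rfl) hX hY hl hm ?_ ?_ hs hxy⟩ <;>
  exact lt_of_lt_of_le (show (2 : ℝ) < 4 by norm_num) hs

end PCh

end

end Crest.Agent.X261.Pole
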