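import Crest.Agent.X261.Pole.Plq
import Crest.Agent.X261.BT.Inst
import Crest.Agent.X261.BT.DiscD
import Crest.Agent.X261.Top.Defs

/-!
# Row 261, package POLE (helper59), file `Inst`: the energy system of a Kähler form,
plaque charts from foliated charts
-/

set_option autoImplicit false

open Set Filter Topology Metric

namespace Crest.Agent.X261.Pole

open Crest.Agent.X261.Two Crest.Agent.X261.BT
open Crest.Agent.R275.Geo
open Crest.Agent.R281.Kp_487 (KP pot)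
open Crest.Agent.R273.Fock_243 (FI)

noncomputable section

variable {n : ℕ} {M : Type} [TopologicalSpace M] {A : Atl n M}

section inst

variable [MeasurableSpace M] [BorelSpace M] [Countable A.ι] [T2Space M] {H : KP A}

/-- the energy system of `H` -/
def esOf (hH : H.Pos) (hS : Slow H) : ES M where
  toDS := dsOf hH hS (dsc hH)
  P := PE H
  P_mem := (lsOf hH hS).P_mem
  P_le := (lsOf hH hS).P_le
  P_le' := (lsOf hH hS).P_le'
  le_P := (lsOf hH hS).le_P
  s3 := (lsOf hH hS).s3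
  cvx := (lsOf hH hS).cvx

theorem esOf_ls (hH : H.Pos) (hS : Slow H) : (esOf hH hS).ls = lsOf hH hS := rfl

theorem esOf_ds (hH : H.Pos) (hS : Slow H) : (esOf hH hS).toDS = dsOf hH hS (dsc hH) := rfl

theorem esOf_Q (hH : H.Pos) (hS : Slow H) : (esOf hH hS).Q = QQ H := rfl

theorem esOf_D (hH : H.Pos) (hS : Slow H) (f : M → ℝ) : (esOf hH hS).D f = -En H f := rfl

theorem geo_esOf (hH : H.Pos) (hS : Slow H) : Geo (esOf hH hS).toDS H :=
  ⟨fun _ hf => hf.1.qp, fun _ h1 h2 => ⟨h1, h2⟩, fun _ hV => hV.cont, fun _ hV => hV.jp.psh⟩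

end inst

section fch

variable {G : Type} [Group G] [MulAction G M] {p r : ℕ} {𝒯 : Top.Tube A G p}
  {ε : A.ι → M → FI n → ℂ}

/-- the plaque chart of a foliated chart -/
def pch (C : Top.FCh 𝒯 r ε) : PCh A p r where
  i := C.i
  ψ q := A.e C.i (C.φ.symm q)
  hol := C.tgt ▸ C.hol'
  maps _ hq := (A.e C.i).map_source (C.sub (C.φ.map_target (C.tgt ▸ hq)))

theorem pch_i (C : Top.FCh 𝒯 r ε) : (pch C).i = C.i := rfl

theorem pch_pt (C : Top.FCh 𝒯 r ε) {q : Cn p × Cn r}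
    (hq : q ∈ (ball 0 2 ×ˢ ball 0 2 : Set (Cn p × Cn r))) : (pch C).pt q = C.φ.symm q :=
  (A.e C.i).left_inv (C.sub (C.φ.map_target (C.tgt ▸ hq)))

theorem pch_rho (C : Top.FCh 𝒯 r ε) (H : KP A) {q : Cn p × Cn r}
    (hq : q ∈ (ball 0 2 ×ˢ ball 0 2 : Set (Cn p × Cn r))) :
    (pch C).rho H q = H.u C.i (C.φ.symm q) :=
  congrArg (H.u C.i) (pch_pt C hq)

theorem pch_pt_φ (C : Top.FCh 𝒯 r ε) {x : M} (hx : x ∈ C.φ.source) : (pch C).pt (C.φ x) = x := by
  rw [pch_pt C (C.tgt ▸ C.φ.map_source hx), C.φ.left_inv hx]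

/-- the constraint of a foliated chart, on `M` -/
theorem mem_F_pch (C : Top.FCh 𝒯 r ε) {H : KP A} {y : Cn p} {B : Cn p →L[ℂ] Cn p}
    (hy : ‖y‖ + ‖B‖ < 2) {h : ℝ} {f : M → ℝ} : f ∈ (pch C).F H y B h ↔
      ∀ x ∈ C.φ.source, (∃ w, ‖w‖ ≤ 1 ∧ (C.φ x).1 = y + B w) → ‖(C.φ x).2‖ ≤ 1 →
        f x + H.u C.i x ≤ -h := by
  rw [PCh.mem_F]
  constructor
  · rintro hf x hx ⟨w, hw, e⟩ h2
    have := hf w hw _ h2
    rw [← e, Prod.mk.eta, pch_pt_φ C hx, pch_rho C H (C.tgt ▸ C.φ.map_source hx),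
      C.φ.left_inv hx] at this
    exact this
  · intro hf w hw w' hw'
    have hq := aff_mem hy hw hw'
    have ht : (y + B w, w') ∈ C.φ.target := C.tgt ▸ hq
    rw [pch_pt C hq, pch_rho C H hq]
    exact hf _ (C.φ.map_target ht) ⟨w, hw, by rw [C.φ.right_inv ht]⟩
      (by rw [C.φ.right_inv ht]; exact hw')

end fch

end

end Crest.Agent.X261.Pole
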