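import Crest.Agent.X261.Pole.Lim
import Crest.Agent.X261.Two.Sel
import Crest.Agent.X261.BT.Defs

/-!
# Row 261, package POLE (helper59), file `ES`

`ES M` = `DS M` (discs) + envelopes and supermodularity; `Geo S H` links it with the
Bedford-Taylor objects of the form `H`.
-/

set_option autoImplicit false

open Set Filter Topology Metric

namespace Crest.Agent.X261.Pole

open Crest.Agent.X261.Two Crest.Agent.X261.BT
open Crest.Agent.R275.Geo
open Crest.Agent.R281.Rich_710 (PshL)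
open Crest.Agent.R281.Kp_487 (KP pot)

noncomputable section

/-- energy system: discs and lattice -/
structure ES (M : Type*) [TopologicalSpace M] extends DS M where
  P : (M → ℝ) → (M → ℝ) → ℝ → M → ℝ
  P_mem : ∀ a ∈ Q, ∀ b ∈ Q, ∀ s : ℝ, 0 ≤ s → P a b s ∈ Q
  P_le : ∀ a ∈ Q, ∀ b ∈ Q, ∀ s : ℝ, 0 ≤ s → P a b s ≤ a
  P_le' : ∀ a ∈ Q, ∀ b ∈ Q, ∀ s : ℝ, 0 ≤ s → ∀ x, P a b s x ≤ b x + s
  le_P : ∀ a ∈ Q, ∀ b ∈ Q, ∀ s : ℝ, 0 ≤ s → ∀ f ∈ Q, f ≤ a → (∀ x, f x ≤ b x + s) → f ≤ P a b s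
  s3 : ∀ a ∈ Q, ∀ b ∈ Q, ∀ s : ℝ, 0 ≤ s →
    D (b ⊔ fun x => a x - s) + D (P a b s) ≤ D a + D b
  cvx : ConvexOn ℝ Q D

namespace ES

variable {M : Type*} [TopologicalSpace M] (S : ES M)

/-- the lattice part -/
def ls : LS M where
  Q := S.Q
  D := S.D
  P := S.P
  zero_mem := S.zero_mem
  D_zero := S.D_zero
  nonpos := S.nonpos
  anti := S.anti
  maxs_mem := S.maxs_mem
  P_mem := S.P_mem
  P_le := S.P_le
  P_le' := S.P_le'
  le_P := S.le_P
  s3 := S.s3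
  cvx := S.cvx

@[simp] theorem ls_Q : S.ls.Q = S.Q := rfl
@[simp] theorem ls_D : S.ls.D = S.D := rfl
@[simp] theorem ls_P : S.ls.P = S.P := rfl

theorem dp_Fe {X : Type*} (W : Set X) (κ : X → M) (γ : X → ℝ) (a : M → ℝ) :
    S.ls.dp (LS.Fe W κ γ) a = S.dep (Feas S.toDS a W κ γ) := rfl

/-- constraints on a compact set are admissible -/
theorem cons_Fe {X : Type*} {W : Set X} {κ : X → M} {γ : X → ℝ} {K : Set M} (hK : IsCompact K)
    (hκ : ∀ w ∈ W, κ w ∈ K) {C : ℝ} (hγ : ∀ w ∈ W, -C ≤ γ w) : S.ls.Cons (LS.Fe W κ γ) := by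
  refine LS.cons_Fe fun a ha => ?_
  obtain ⟨Ka, Ta, hKa, -, hSa⟩ := DS.exists_SB (S := S.toDS) ha
  obtain ⟨b, hb, hbT⟩ := S.bfun _ (hK.union hKa) (max C Ta)
  refine ⟨b, hb, fun x => ?_, fun w hw => ?_⟩
  · by_cases hx : x ∈ Ka
    · have h1 := hbT x (Or.inr hx)
      have h2 := hSa.2 x
      have h3 := le_max_right C Ta
      linarith
    · rw [hSa.1 x hx]; exact S.nonpos b hb x
  · have h1 := hbT _ (Or.inl (hκ w hw))
    have h2 := hγ w hw
    have h3 := le_max_left C Ta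
    linarith

end ES

/-- the energy system belongs to the form `H` -/
structure Geo {n : ℕ} {M : Type} [TopologicalSpace M] {A : Atl n M} (S : DS M) (H : KP A) :
    Prop where
  qp : ∀ f ∈ S.Q, QP H univ f
  mem : ∀ f, PP H f → f ≤ 0 → f ∈ S.Q
  jc : ∀ V, S.JP V → ContinuousOn (fun p : ℂ × M => V p.1 p.2) (closedBall 0 1 ×ˢ univ)
  jp : ∀ V, S.JP V → ∀ i,
    PshL (ball 0 1 ×ˢ (A.e i).target) fun p : ℂ × Cn n => pot H (V p.1) i p.2

end

end Crest.Agent.X261.Pole
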