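import Crest.Agent.X261.Pole.Lat

/-!
# Row 261, package POLE (helper59), file `Lim`: renormalised pole energies

`PF S` : a family of constraints `F s h` (radius `e^{-s/2}`, depth `h`), jointly convex.
`Dl k p c a = inf_s [Φ a s (c s) - k c^{p+1} s]`; under `Asy k p` it is finite, a decreasing limit,
and shifting the depth by `t` costs exactly `mc k p c * t`.
-/

set_option autoImplicit false

open Set Filter Topology

namespace Crest.Agent.X261.Pole

noncomputable section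

/-- a convex function that is bounded above near `+∞` is antitone -/
theorem antitoneOn_of_bdd {f : ℝ → ℝ} {I : Set ℝ} (hf : ConvexOn ℝ I f)
    (hI : ∀ x ∈ I, ∀ y, x ≤ y → y ∈ I) {C : ℝ} (hC : ∀ᶠ s in atTop, f s ≤ C) :
    AntitoneOn f I := by
  intro x hx y _ hxy
  rcases hxy.eq_or_lt with rfl | hxy
  · exact le_rfl
  by_contra hlt
  push Not at hlt
  obtain ⟨z, hz1, hz2, hz3⟩ := (hC.and ((eventually_gt_atTop y).and
    (eventually_gt_atTop (y + (y - x) * (C - f y) / (f y - f x))))).exists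
  have hzx : 0 < z - x := by linarith
  have h1 := hf.2 hx (hI x hx z (by linarith))
    (show 0 ≤ (z - y) / (z - x) from div_nonneg (by linarith) hzx.le)
    (show 0 ≤ (y - x) / (z - x) from div_nonneg (by linarith) hzx.le)
    (by field_simp; ring)
  have h2 : ((z - y) / (z - x)) • x + ((y - x) / (z - x)) • z = y := by
    simp only [smul_eq_mul]; field_simp; ring
  rw [h2] at h1
  simp only [smul_eq_mul] at h1
  have h3 : (z - x) * f y ≤ (z - y) * f x + (y - x) * f z := by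
    have := mul_le_mul_of_nonneg_left h1 hzx.le
    have e : (z - x) * ((z - y) / (z - x) * f x + (y - x) / (z - x) * f z)
        = (z - y) * f x + (y - x) * f z := by field_simp
    linarith
  have h4 : (y - x) * (C - f y) < (z - y) * (f y - f x) := by
    have : (y - x) * (C - f y) / (f y - f x) < z - y := by linarith
    rwa [div_lt_iff₀ (by linarith)] at this
  have h5 : (y - x) * f z ≤ (y - x) * C := mul_le_mul_of_nonneg_left hz1 (by linarith)
  nlinarith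

/-- a convex function on the line that is bounded above is constant -/
theorem eq_of_convex_bdd {f : ℝ → ℝ} (hf : ConvexOn ℝ univ f) {C : ℝ} (hC : ∀ s, f s ≤ C)
    (x y : ℝ) : f x = f y := by
  have h1 := antitoneOn_of_bdd hf (fun _ _ _ _ => mem_univ _) (Eventually.of_forall hC)
  have hg : ConvexOn ℝ univ fun s => f (-s) := by
    refine ⟨convex_univ, fun a _ b _ p q hp hq hpq => ?_⟩
    have := hf.2 (mem_univ (-a)) (mem_univ (-b)) hp hq hpq
    simp only [smul_eq_mul] at this ⊢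
    rwa [show -(p * a + q * b) = p * -a + q * -b by ring]
  have h2 := antitoneOn_of_bdd hg (fun _ _ _ _ => mem_univ _)
    (Eventually.of_forall fun s => hC (-s))
  wlog h : x ≤ y generalizing x y
  · exact (this y x (le_of_not_ge h)).symm
  refine le_antisymm ?_ (h1 (mem_univ _) (mem_univ _) h)
  simpa using h2 (mem_univ (-y)) (mem_univ (-x)) (neg_le_neg h)

/-- slope in the radius -/
def kc (k : ℝ) (p : ℕ) (c : ℝ) : ℝ := k * c ^ (p + 1)

/-- slope in the depth (mass of the pole) -/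
def mc (k : ℝ) (p : ℕ) (c : ℝ) : ℝ := (p + 1) * k * c ^ p

theorem mc_mul (k : ℝ) (p : ℕ) (c : ℝ) : mc k p c * c = (p + 1) * kc k p c := by
  unfold mc kc; ring

theorem mc_nonneg {k c : ℝ} (hk : 0 ≤ k) (p : ℕ) (hc : 0 ≤ c) : 0 ≤ mc k p c := by
  unfold mc; positivity

theorem kc_nonneg {k c : ℝ} (hk : 0 ≤ k) (p : ℕ) (hc : 0 ≤ c) : 0 ≤ kc k p c := by
  unfold kc; positivity

theorem tendsto_model (k : ℝ) (p : ℕ) (c t : ℝ) :
    Tendsto (fun s : ℝ => k * (c * s + t) ^ (p + 1) / s ^ p - kc k p c * s) atTop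
      (𝓝 (mc k p c * t)) := by
  have h1 : HasDerivAt (fun u : ℝ => k * (c + t * u) ^ (p + 1)) (mc k p c * t) 0 := by
    have := (((hasDerivAt_id (0 : ℝ)).const_mul t).const_add c).pow (p + 1) |>.const_mul k
    refine this.congr_deriv ?_
    simp only [mc, id, mul_zero, add_zero, mul_one, Nat.add_sub_cancel]
    push_cast
    ring
  have h2 : Tendsto (fun s : ℝ => s⁻¹) atTop (𝓝[≠] 0) :=
    tendsto_inv_atTop_nhdsGT_zero.mono_right (nhdsWithin_mono _ fun x hx => ne_of_gt hx)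
  refine (h1.tendsto_slope_zero.comp h2).congr' ?_
  filter_upwards [eventually_gt_atTop 0] with s hs
  simp only [Function.comp, zero_add, inv_inv, smul_eq_mul, mul_zero, add_zero, kc]
  have : c * s + t = (c + t * s⁻¹) * s := by field_simp
  rw [this, mul_pow]
  field_simp
  ring

variable {M : Type*}

/-- pole family: constraints of radius `e^{-s/2}` and depth `h` -/
structure PF (S : LS M) where
  s0 : ℝ
  F : ℝ → ℝ → Set (M → ℝ)
  cons : ∀ s, s0 < s → ∀ h, S.Cons (F s h)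
  shift : ∀ s, s0 < s → ∀ h σ, ∀ f ∈ F s h, ∀ g, (∀ x, g x ≤ f x + σ) → g ∈ F s (h - σ)
  cvx : ∀ a ∈ S.Q, ConvexOn ℝ (Ioi s0 ×ˢ univ) fun q : ℝ × ℝ => S.dp (F q.1 q.2) a

namespace PF

variable {S : LS M} (Y : PF S)

/-- the depth functional -/
def Φ (a : M → ℝ) (s h : ℝ) : ℝ := S.dp (Y.F s h) a

/-- asymptotics at a good point -/
def Asy (k : ℝ) (p : ℕ) : Prop :=
  ∀ c₀ c₁ : ℝ, 0 < c₀ → ∃ C s₁ : ℝ, ∀ s, s₁ ≤ s → ∀ h, c₀ * s ≤ h → h ≤ c₁ * s →
    |Y.Φ 0 s h - k * h ^ (p + 1) / s ^ p| ≤ C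

/-- the renormalised pole energy -/
def Dl (k : ℝ) (p : ℕ) (c : ℝ) (a : M → ℝ) : EReal :=
  ⨅ s ∈ Ioi Y.s0, ((Y.Φ a s (c * s) - kc k p c * s : ℝ) : EReal)

/-- its real value -/
def dl (k : ℝ) (p : ℕ) (c : ℝ) (a : M → ℝ) : ℝ := (Y.Dl k p c a).toReal

/-- cost of the background `a` relative to the pole -/
def cst (k : ℝ) (p : ℕ) (c : ℝ) (a : M → ℝ) : ℝ := Y.dl k p c a - Y.dl k p c 0

variable {Y} {k : ℝ} {p : ℕ} {c : ℝ} {a b v w : M → ℝ} {s : ℝ}

theorem F_anti (hs : Y.s0 < s) {h h' : ℝ} (hh : h ≤ h') {f : M → ℝ} (hf : f ∈ Y.F s h') :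
    f ∈ Y.F s h := by
  have := Y.shift s hs h' (h' - h) f hf f fun x => by linarith
  rwa [sub_sub_cancel] at this

theorem Φ_mono (ha : a ∈ S.Q) (hs : Y.s0 < s) {h h' : ℝ} (hh : h ≤ h') :
    Y.Φ a s h ≤ Y.Φ a s h' :=
  (Y.cons s hs h').dp_mono ha fun _ _ hf => F_anti hs hh hf

theorem Φ_nonneg (ha : a ∈ S.Q) (hs : Y.s0 < s) (h : ℝ) : 0 ≤ Y.Φ a s h :=
  (Y.cons s hs h).dp_nonneg ha

theorem Φ0_le (ha : a ∈ S.Q) (hs : Y.s0 < s) (h : ℝ) : Y.Φ 0 s h ≤ Y.Φ a s h :=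
  (Y.cons s hs h).dp0_le ha

theorem Φ_le_add (ha : a ∈ S.Q) (hs : Y.s0 < s) (h : ℝ) : Y.Φ a s h ≤ Y.Φ 0 s h + S.D a :=
  (Y.cons s hs h).dp_le_add ha

theorem Φ_eq (ha : a ∈ S.Q) (hs : Y.s0 < s) {h : ℝ} (hF : a ∈ Y.F s h) : Y.Φ a s h = S.D a :=
  (Y.cons s hs h).dp_eq ha hF

theorem Φ_shift (ha : a ∈ S.Q) (hs : Y.s0 < s) (h : ℝ) {σ : ℝ} (hσ : 0 ≤ σ)
    (hσa : ∀ x, -σ ≤ a x) : Y.Φ 0 s (h - σ) + S.D a ≤ Y.Φ a s h :=
  (Y.cons s hs h).dp_shift hσ (Y.shift s hs h σ) ha hσa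

theorem Φ_sub (ha : a ∈ S.Q) (hs : Y.s0 < s) {h h' : ℝ} (hh : h ≤ h') :
    Y.Φ a s h' - Y.Φ 0 s h' ≤ Y.Φ a s h - Y.Φ 0 s h := by
  have := (Y.cons s hs h).dp_sub (Y.cons s hs h') (fun _ _ hf => F_anti hs hh hf) ha S.zero_mem
    (S.nonpos a ha)
  unfold Φ; linarith

theorem Dl_le (hs : Y.s0 < s) : Y.Dl k p c a ≤ ((Y.Φ a s (c * s) - kc k p c * s : ℝ) : EReal) :=
  biInf_le (fun s => ((Y.Φ a s (c * s) - kc k p c * s : ℝ) : EReal)) hs

theorem Dl_lt_top : Y.Dl k p c a < ⊤ :=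
  (Dl_le (s := Y.s0 + 1) (by linarith)).trans_lt (EReal.coe_lt_top _)

theorem convex_ray (ha : a ∈ S.Q) (c t κ : ℝ) :
    ConvexOn ℝ (Ioi Y.s0) fun s => Y.Φ a s (c * s + t) - κ * s := by
  refine ⟨convex_Ioi _, fun x hx y hy α β hα hβ hαβ => ?_⟩
  have := (Y.cvx a ha).2 (x := (x, c * x + t)) (y := (y, c * y + t)) ⟨hx, mem_univ _⟩
    ⟨hy, mem_univ _⟩ hα hβ hαβ
  simp only [Prod.smul_mk, Prod.mk_add_mk, smul_eq_mul] at this ⊢
  have e : α * (c * x + t) + β * (c * y + t) = c * (α * x + β * y) + t := by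
    linear_combination t * hαβ
  rw [e] at this
  unfold Φ
  linarith

theorem convex_depth (ha : a ∈ S.Q) (hs : Y.s0 < s) : ConvexOn ℝ univ fun h => Y.Φ a s h := by
  refine ⟨convex_univ, fun x _ y _ α β hα hβ hαβ => ?_⟩
  have := (Y.cvx a ha).2 (x := (s, x)) (y := (s, y)) ⟨hs, mem_univ _⟩ ⟨hs, mem_univ _⟩ hα hβ hαβ
  simp only [Prod.smul_mk, Prod.mk_add_mk, smul_eq_mul] at this ⊢
  rwa [← add_mul, hαβ, one_mul] at this

namespace Asy

theorem bound (hY : Y.Asy k p) (hc : 0 < c) (ha : a ∈ S.Q) : ∃ C : ℝ, ∀ t : ℝ,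
    ∀ᶠ s in atTop, |Y.Φ a s (c * s + t) - kc k p c * s - mc k p c * t| ≤ C := by
  obtain ⟨C, s₁, hC⟩ := hY (c / 2) (2 * c) (half_pos hc)
  refine ⟨C + 1 + S.D a, fun t => ?_⟩
  have h1 := (tendsto_model k p c t).eventually (Metric.ball_mem_nhds _ one_pos)
  filter_upwards [h1, eventually_ge_atTop s₁, eventually_gt_atTop Y.s0,
    eventually_ge_atTop (2 * |t| / c)] with s e1 e2 e3 e4
  rw [div_le_iff₀ hc] at e4
  have e5 := hC s e2 (c * s + t) (by linarith [neg_abs_le t]) (by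
    linarith [le_abs_self t, abs_nonneg t])
  rw [Real.dist_eq] at e1
  have e6 := Φ0_le ha e3 (c * s + t)
  have e7 := Φ_le_add ha e3 (c * s + t)
  have e8 := LS.D_nonneg ha
  rw [abs_le] at e5 ⊢
  rw [abs_lt] at e1
  constructor <;> linarith [e1.1, e1.2, e5.1, e5.2]

theorem anti (hY : Y.Asy k p) (hc : 0 < c) (ha : a ∈ S.Q) (t : ℝ) :
    AntitoneOn (fun s => Y.Φ a s (c * s + t) - kc k p c * s) (Ioi Y.s0) := by
  obtain ⟨C, hC⟩ := hY.bound hc ha
  refine antitoneOn_of_bdd (convex_ray ha c t _) (fun x hx y hy => lt_of_lt_of_le hx hy)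
    (C := C + mc k p c * t) ?_
  filter_upwards [hC t] with s hs
  linarith [(abs_le.1 hs).2]

theorem exists_lim (hY : Y.Asy k p) (hc : 0 < c) (ha : a ∈ S.Q) (t : ℝ) : ∃ L : ℝ,
    Tendsto (fun s => Y.Φ a s (c * s + t) - kc k p c * s) atTop (𝓝 L) ∧
      ∀ s, Y.s0 < s → L ≤ Y.Φ a s (c * s + t) - kc k p c * s := by
  obtain ⟨C, hC⟩ := hY.bound hc ha
  set g : ℝ → ℝ := fun s => Y.Φ a s (c * s + t) - kc k p c * s with hg
  have h1 : Antitone fun s => g (max s (Y.s0 + 1)) := fun x y hxy =>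
    hY.anti hc ha t (show Y.s0 < _ from lt_max_of_lt_right (by linarith))
      (show Y.s0 < _ from lt_max_of_lt_right (by linarith)) (max_le_max_right _ hxy)
  have h3 : ∀ s, Y.s0 < s → mc k p c * t - C ≤ g s := fun s hs => by
    obtain ⟨z, hz1, hz2⟩ := ((hC t).and (eventually_ge_atTop s)).exists
    have := hY.anti hc ha t hs (lt_of_lt_of_le hs hz2) hz2
    have h := (abs_le.1 hz1).1
    simp only [hg] at this ⊢
    linarith
  have h2 : BddBelow (range fun s => g (max s (Y.s0 + 1))) :=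
    ⟨_, by rintro _ ⟨s, rfl⟩; exact h3 _ (lt_max_of_lt_right (by linarith))⟩
  have h4 : Tendsto g atTop (𝓝 (⨅ s, g (max s (Y.s0 + 1)))) := by
    refine (tendsto_atTop_ciInf h1 h2).congr' ?_
    filter_upwards [eventually_ge_atTop (Y.s0 + 1)] with s hs
    rw [max_eq_left hs]
  refine ⟨_, h4, fun s hs => le_of_tendsto h4 ?_⟩
  filter_upwards [eventually_ge_atTop s] with z hz
  exact hY.anti hc ha t hs (lt_of_lt_of_le hs hz) hz

theorem Dl_eq (hY : Y.Asy k p) (hc : 0 < c) (ha : a ∈ S.Q) {L : ℝ}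
    (h1 : Tendsto (fun s => Y.Φ a s (c * s + 0) - kc k p c * s) atTop (𝓝 L))
    (h2 : ∀ s, Y.s0 < s → L ≤ Y.Φ a s (c * s + 0) - kc k p c * s) : Y.Dl k p c a = L := by
  have _ := hY.anti hc ha 0
  simp only [add_zero] at h1 h2
  refine le_antisymm ?_ (le_iInf₂ fun s hs => EReal.coe_le_coe_iff.2 (h2 s hs))
  refine ge_of_tendsto (continuous_coe_real_ereal.continuousAt.tendsto.comp h1) ?_
  filter_upwards [eventually_gt_atTop Y.s0] with s hs
  exact Dl_le hs

theorem coe_dl (hY : Y.Asy k p) (hc : 0 < c) (ha : a ∈ S.Q) :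
    (Y.dl k p c a : EReal) = Y.Dl k p c a := by
  obtain ⟨L, h1, h2⟩ := hY.exists_lim hc ha 0
  rw [dl, hY.Dl_eq hc ha h1 h2, EReal.toReal_coe]

/-- **exact shift law** -/
theorem tendsto (hY : Y.Asy k p) (hc : 0 < c) (ha : a ∈ S.Q) (t : ℝ) :
    Tendsto (fun s => Y.Φ a s (c * s + t) - kc k p c * s) atTop
      (𝓝 (Y.dl k p c a + mc k p c * t)) := by
  choose L hL hL' using hY.exists_lim hc ha
  obtain ⟨C, hC⟩ := hY.bound hc ha
  have h1 : ConvexOn ℝ univ fun t => L t - mc k p c * t := by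
    refine ⟨convex_univ, fun x _ y _ α β hα hβ hαβ => ?_⟩
    have : L (α * x + β * y) ≤ α * L x + β * L y := by
      refine le_of_tendsto_of_tendsto (hL _) (((hL x).const_mul α).add ((hL y).const_mul β)) ?_
      filter_upwards [eventually_gt_atTop Y.s0] with s hs
      have := (convex_depth ha hs).2 (mem_univ (c * s + x)) (mem_univ (c * s + y)) hα hβ hαβ
      simp only [smul_eq_mul] at this
      have e : α * (c * s + x) + β * (c * s + y) = c * s + (α * x + β * y) := by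
        linear_combination (c * s) * hαβ
      have e' : kc k p c * s = α * (kc k p c * s) + β * (kc k p c * s) := by
        rw [← add_mul, hαβ, one_mul]
      rw [e] at this
      linarith
    simp only [smul_eq_mul]
    linarith
  have h2 : ∀ t, L t - mc k p c * t ≤ C := fun t => by
    refine le_of_tendsto ((hL t).sub_const _) ?_
    filter_upwards [hC t] with s hs using (abs_le.1 hs).2
  have h3 := eq_of_convex_bdd h1 h2 t 0
  have h4 : Y.dl k p c a = L 0 := by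
    rw [dl, hY.Dl_eq hc ha (hL 0) (hL' 0), EReal.toReal_coe]
  rw [h4, show L 0 + mc k p c * t = L t by linarith]
  exact hL t

theorem tendsto0 (hY : Y.Asy k p) (hc : 0 < c) (ha : a ∈ S.Q) :
    Tendsto (fun s => Y.Φ a s (c * s) - kc k p c * s) atTop (𝓝 (Y.dl k p c a)) := by
  simpa using hY.tendsto hc ha 0

/-- upper bound by any finite configuration -/
theorem dl_le (hY : Y.Asy k p) (hc : 0 < c) (ha : a ∈ S.Q) (hs : Y.s0 < s) (h : ℝ) :
    Y.dl k p c a ≤ Y.Φ a s h - kc k p c * s - mc k p c * (h - c * s) := by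
  have : Y.dl k p c a + mc k p c * (h - c * s) ≤
      Y.Φ a s (c * s + (h - c * s)) - kc k p c * s := by
    refine le_of_tendsto (hY.tendsto hc ha _) ?_
    filter_upwards [eventually_ge_atTop s] with z hz
    exact hY.anti hc ha _ hs (lt_of_lt_of_le hs hz) hz
  rw [add_sub_cancel] at this
  linarith

/-- (R) and the `L`-frame bound: a feasible background -/
theorem dl_le_of_mem (hY : Y.Asy k p) (hc : 0 < c) (ha : a ∈ S.Q) (hs : Y.s0 < s) {h : ℝ}
    (hF : a ∈ Y.F s h) : Y.dl k p c a ≤ S.D a - kc k p c * s - mc k p c * (h - c * s) := by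
  rw [← Φ_eq ha hs hF]; exact hY.dl_le hc ha hs h

theorem tendsto_cst (hY : Y.Asy k p) (hc : 0 < c) (ha : a ∈ S.Q) (t : ℝ) :
    Tendsto (fun s => Y.Φ a s (c * s + t) - Y.Φ 0 s (c * s + t)) atTop (𝓝 (Y.cst k p c a)) := by
  have := (hY.tendsto hc ha t).sub (hY.tendsto hc S.zero_mem t)
  simp only [sub_sub_sub_cancel_right, add_sub_add_right_eq_sub] at this
  exact this

theorem tendsto_cst0 (hY : Y.Asy k p) (hc : 0 < c) (ha : a ∈ S.Q) :
    Tendsto (fun s => Y.Φ a s (c * s) - Y.Φ 0 s (c * s)) atTop (𝓝 (Y.cst k p c a)) := by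
  simpa using hY.tendsto_cst hc ha 0

/-- difference quotients in the depth -/
theorem tendsto_diff (hY : Y.Asy k p) (hc : 0 < c) (ha : a ∈ S.Q) (t t' : ℝ) :
    Tendsto (fun s => Y.Φ a s (c * s + t) - Y.Φ a s (c * s + t')) atTop
      (𝓝 (mc k p c * (t - t'))) := by
  have := (hY.tendsto hc ha t).sub (hY.tendsto hc ha t')
  simp only [sub_sub_sub_cancel_right, add_sub_add_left_eq_sub] at this
  rwa [mul_sub]

theorem cst_nonneg (hY : Y.Asy k p) (hc : 0 < c) (ha : a ∈ S.Q) : 0 ≤ Y.cst k p c a := by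
  refine ge_of_tendsto (hY.tendsto_cst0 hc ha) ?_
  filter_upwards [eventually_gt_atTop Y.s0] with s hs
  linarith [Φ0_le ha hs (c * s)]

theorem cst_le (hY : Y.Asy k p) (hc : 0 < c) (ha : a ∈ S.Q) : Y.cst k p c a ≤ S.D a := by
  refine le_of_tendsto (hY.tendsto_cst0 hc ha) ?_
  filter_upwards [eventually_gt_atTop Y.s0] with s hs
  linarith [Φ_le_add ha hs (c * s)]

/-- trivial bound -/
theorem triv (hY : Y.Asy k p) (hc : 0 < c) (ha : a ∈ S.Q) {σ : ℝ} (hσ : 0 ≤ σ)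
    (hσa : ∀ x, -σ ≤ a x) : S.D a - Y.cst k p c a ≤ mc k p c * σ := by
  have h1 := (hY.tendsto hc ha 0).sub (hY.tendsto hc S.zero_mem (-σ))
  have : S.D a ≤ Y.dl k p c a + mc k p c * 0 - (Y.dl k p c 0 + mc k p c * -σ) := by
    refine ge_of_tendsto h1 ?_
    filter_upwards [eventually_gt_atTop Y.s0] with s hs
    have := Φ_shift ha hs (c * s) hσ hσa
    rw [add_zero, ← sub_eq_add_neg]
    linarith
  unfold cst
  linarith

theorem cst_anti (hY : Y.Asy k p) (hc : 0 < c) (ha : a ∈ S.Q) (hb : b ∈ S.Q) (h : a ≤ b) :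
    Y.cst k p c b ≤ Y.cst k p c a := by
  refine le_of_tendsto_of_tendsto (hY.tendsto_cst0 hc hb) (hY.tendsto_cst0 hc ha) ?_
  filter_upwards [eventually_gt_atTop Y.s0] with s hs
  exact sub_le_sub_right ((Y.cons s hs _).dp_anti ha h) _

/-- triangle inequality pole - background - background -/
theorem cst_tri (hY : Y.Asy k p) (hc : 0 < c) (hv : v ∈ S.Q) (ha : a ∈ S.Q) :
    Y.cst k p c v ≤ Y.cst k p c a + S.cost v a := by
  refine le_of_tendsto_of_tendsto (hY.tendsto_cst0 hc hv)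
    ((hY.tendsto_cst0 hc ha).add_const _) ?_
  filter_upwards [eventually_gt_atTop Y.s0] with s hs
  have := (Y.cons s hs (c * s)).dp_le_cost hv ha
  simp only [Φ]
  linarith

theorem cst_mn (hY : Y.Asy k p) (hc : 0 < c) (hv : v ∈ S.Q) (hw : w ∈ S.Q) :
    Y.cst k p c (S.mn v w) ≤ Y.cst k p c v + Y.cst k p c w := by
  refine le_of_tendsto_of_tendsto (hY.tendsto_cst0 hc (LS.mn_mem hv hw))
    ((hY.tendsto_cst0 hc hv).add (hY.tendsto_cst0 hc hw)) ?_
  filter_upwards [eventually_gt_atTop Y.s0] with s hs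
  have := (Y.cons s hs (c * s)).dp_mn hv hw
  simp only [Φ]
  linarith

/-- a higher level makes every background cheaper -/
theorem cst_level (hY : Y.Asy k p) (hc : 0 < c) {c' : ℝ} (hcc : c ≤ c') (ha : a ∈ S.Q) :
    Y.cst k p c' a ≤ Y.cst k p c a := by
  refine le_of_tendsto_of_tendsto (hY.tendsto_cst0 (hc.trans_le hcc) ha) (hY.tendsto_cst0 hc ha) ?_
  filter_upwards [eventually_gt_atTop Y.s0, eventually_ge_atTop 0] with s hs h0
  exact Φ_sub ha hs (mul_le_mul_of_nonneg_right hcc h0)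

/-- LEMMA 2L -/
theorem two_l (hY : Y.Asy k p) (hc : 0 < c) (hv : v ∈ S.Q) (hw : w ∈ S.Q) {σ : ℝ} (hσ : 0 ≤ σ)
    (hσv : ∀ x, -σ ≤ v x) (hσw : ∀ x, -σ ≤ w x) :
    S.cost v w ≤ Y.cst k p c v + (mc k p c * σ - (S.D w - Y.cst k p c w)) := by
  have e1 := hY.triv hc (LS.mn_mem hv hw) hσ (LS.le_mn_of hv hw hσ hσv hσw)
  have e2 := hY.cst_mn hc hv hw
  unfold LS.cost
  linarith

/-- a background above a feasible competitor of small excess is cheap -/
theorem cst_le_of_feas (hY : Y.Asy k p) (hc : 0 < c) (ha : a ∈ S.Q) (hs : Y.s0 < s) (h : ℝ) :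
    Y.cst k p c a ≤ (Y.Φ a s h - kc k p c * s - mc k p c * (h - c * s)) - Y.dl k p c 0 :=
  sub_le_sub_right (hY.dl_le hc ha hs h) _

theorem k_nonneg (hY : Y.Asy k p) : 0 ≤ k := by
  have h1 := hY.tendsto_diff one_pos S.zero_mem 1 0
  have h2 : 0 ≤ mc k p 1 * (1 - 0) := by
    refine ge_of_tendsto h1 ?_
    filter_upwards [eventually_gt_atTop Y.s0] with s hs
    exact sub_nonneg.2 (Φ_mono S.zero_mem hs (by linarith))
  simp only [mc, one_pow, mul_one, sub_zero] at h2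
  by_contra h3
  push Not at h3
  have : ((p : ℝ) + 1) * k < 0 := mul_neg_of_pos_of_neg (by positivity) h3
  linarith

/-- comparison of two pole families: feasible for `Y` implies feasible for `Y'` with a shifted
radius and depth -/
theorem dl_le_dl {Y' : PF S} (hY : Y.Asy k p) (hY' : Y'.Asy k p) (hc : 0 < c) (ha : a ∈ S.Q)
    {μ t : ℝ} (h : ∀ᶠ s in atTop, ∀ f ∈ S.Q, f ∈ Y.F s (c * s) → f ∈ Y'.F (s + μ) (c * s - t)) :
    Y'.dl k p c a ≤ Y.dl k p c a + (mc k p c * c - kc k p c) * μ + mc k p c * t := by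
  have h1 := (hY'.tendsto hc ha (-(c * μ) - t)).comp (tendsto_atTop_add_const_right atTop μ
    tendsto_id)
  have h2 := (hY.tendsto0 hc ha).sub_const (kc k p c * μ)
  have := le_of_tendsto_of_tendsto h1 h2 (by
    filter_upwards [h, eventually_gt_atTop Y.s0] with s e1 e2
    have e3 : Y'.Φ a (s + μ) (c * s - t) ≤ Y.Φ a s (c * s) := (Y.cons s e2 _).dp_mono ha e1
    simp only [Function.comp, id]
    rw [show c * (s + μ) + (-(c * μ) - t) = c * s - t by ring]
    linarith)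
  linarith

end Asy

end PF

end

end Crest.Agent.X261.Pole
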