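import Crest.Agent.X261.Pole.Lim
import Crest.Agent.X261.Top.Defs
import Crest.Agent.R281.Thin3_524

/-!
# Row 261, package POLE (helper59), file `K0`: one asymptotic constant for all good points
-/

set_option autoImplicit false

open Set Filter Topology

namespace Crest.Agent.X261.Pole

open Crest.Agent.R275.Geo Crest.Agent.X261.Top

noncomputable section

theorem PF.Asy.unique {M : Type*} {S : LS M} {Y : PF S} {k k' : ℝ} {p : ℕ} (h : Y.Asy k p)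
    (h' : Y.Asy k' p) : k = k' := by
  have := tendsto_nhds_unique (h.tendsto_diff one_pos S.zero_mem 1 0)
    (h'.tendsto_diff one_pos S.zero_mem 1 0)
  simp only [mc, one_pow, mul_one, sub_zero] at this
  exact mul_left_cancel₀ (by positivity) this

/-- the shape of `Pole2.asym` gives `Asy` -/
theorem PF.asy_of {M : Type*} {S : LS M} {Y : PF S} {k : ℝ} {p : ℕ}
    (h : ∀ c₁ : ℝ, ∃ C s₂ : ℝ, ∀ s, s₂ ≤ s → ∀ h, 0 ≤ h → h ≤ c₁ * s →
      |S.dp (Y.F s h) 0 - k * h ^ (p + 1) / s ^ p| ≤ C) : Y.Asy k p := fun c₀ c₁ h0 => by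
  obtain ⟨C, s₂, hC⟩ := h c₁
  exact ⟨C, max s₂ 0, fun s hs t h1 h2 => hC s ((le_max_left _ _).trans hs) t
    ((mul_nonneg h0.le ((le_max_right _ _).trans hs)).trans h1) h2⟩

/-- a locally constant parameter on a connected set -/
theorem exists_k0 {M : Type*} [TopologicalSpace M] {M0 Gd : Set M} (hc : IsPreconnected M0)
    (ho : IsOpen M0) (hG : Dense Gd) {P : M → ℝ → Prop}
    (h : ∀ x₀ ∈ M0, ∃ k, 0 < k ∧ ∀ᶠ x in 𝓝 x₀, x ∈ Gd → P x k)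
    (hu : ∀ x ∈ M0, x ∈ Gd → ∀ k k', P x k → P x k' → k = k') :
    ∃ k, 0 < k ∧ ∀ x ∈ M0, x ∈ Gd → P x k := by
  rcases M0.eq_empty_or_nonempty with rfl | ⟨x₀, hx₀⟩
  · exact ⟨1, one_pos, fun _ h => h.elim⟩
  choose! k k0 hk using h
  have key : ∀ x ∈ M0, ∀ᶠ y in 𝓝 x, y ∈ M0 → k y = k x := fun x hx => by
    filter_upwards [(hk x hx).eventually_nhds] with y hy hy0
    obtain ⟨z, ⟨⟨z1, z2⟩, z3⟩, z4⟩ := mem_closure_iff_nhds.1 (hG y) _
      (inter_mem (inter_mem hy (hk y hy0)) (ho.mem_nhds hy0))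
    exact hu z z3 z4 _ _ (z2 z4) (z1 z4)
  have hcont : ∀ x ∈ M0, k x₀ = k x := fun x hx =>
    hc.induction₂' (fun a b => k a = k b) (fun a ha => by
      filter_upwards [nhdsWithin_le_nhds (key a ha), self_mem_nhdsWithin] with y h1 h2
      exact ⟨(h1 h2).symm, h1 h2⟩) (fun _ _ _ _ _ _ => Eq.trans) hx₀ hx
  exact ⟨k x₀, k0 x₀ hx₀, fun x hx hxG => hcont x hx ▸ (hk x hx).self_of_nhds hxG⟩

/-- the generic part of a tube structure is connected -/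
theorem preconn_M0 {n p : ℕ} {M : Type} [TopologicalSpace M] [PreconnectedSpace M] {A : Atl n M}
    {G : Type} [Group G] [MulAction G M] (𝒯 : Tube A G p) : IsPreconnected 𝒯.M0 := by
  refine R281.Thin3_524.preconnected_of_thin A.cover 𝒯.opn fun i => ?_
  intro z _
  refine (𝒯.thin.thin i z).mono fun v hv => ?_
  have hv' : {c : ℂ | z + c • v ∈ (A.e i).target ∧
    (A.e i).symm (z + c • v) ∈ 𝒯.M0ᶜ}.Countable := hv
  show {c : ℂ | z + c • v ∈ (A.e i).target ∩ (A.e i).symm ⁻¹' (closure 𝒯.M0 \ 𝒯.M0)}.Countable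
  refine hv'.mono ?_
  rintro c ⟨hc1, hc2⟩
  exact ⟨hc1, hc2.2⟩

/-- ONE constant `k0` for the field `asy` -/
theorem asy_all {n p : ℕ} {M : Type} [TopologicalSpace M] [PreconnectedSpace M] {A : Atl n M}
    {G : Type} [Group G] [MulAction G M] (𝒯 : Tube A G p) {κ : Type*} {O : κ → Set M}
    {S : LS M} {Y : κ → M → PF S} (hcov : ∀ x ∈ 𝒯.M0, ∃ C, x ∈ O C)
    (h : ∀ x₀ ∈ 𝒯.M0, ∃ k, 0 < k ∧
      ∀ C, ∀ x ∈ O C, x ∈ 𝒯.T x₀ → x ∉ 𝒯.Bad → (Y C x).Asy k p) :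
    ∃ k, 0 < k ∧ ∀ C, ∀ x ∈ O C, x ∈ 𝒯.M0 → x ∉ 𝒯.Bad → (Y C x).Asy k p := by
  obtain ⟨k, k0, hk⟩ := exists_k0 (P := fun x k => ∀ C, x ∈ O C → (Y C x).Asy k p)
    (preconn_M0 𝒯) 𝒯.opn 𝒯.bad_thin.dense_compl
    (fun x₀ h₀ => by
      obtain ⟨k, k0, hk⟩ := h x₀ h₀
      refine ⟨k, k0, ?_⟩
      filter_upwards [(𝒯.T_opn x₀ h₀).mem_nhds (𝒯.T_mem x₀ h₀)] with x h1 h2 C h3
      exact hk C x h3 h1 h2)
    fun x hx _ k k' h1 h2 => by
      obtain ⟨C, hC⟩ := hcov x hx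
      exact (h1 C hC).unique (h2 C hC)
  exact ⟨k, k0, fun C x h1 h2 h3 => hk x h2 h3 C h1⟩

end

end Crest.Agent.X261.Pole
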