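import Mathlib

/-!
# Row 261, package POLE (helper59), file `Lat`: the lattice calculus of depth functionals

`LS M` : abstract energy lattice (`Q` = admissible potentials `≤ 0`, `D = -E`, `P a b s` = envelope
of `min a (b + s)`); `Cons F` : constraint sets; `dp F a` : least energy below `a` under `F`;
`cost v a = D (P v a 0) - D a`.
-/

set_option autoImplicit false

open Set Filter Topology

namespace Crest.Agent.X261.Pole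

noncomputable section

/-- abstract energy lattice -/
structure LS (M : Type*) where
  Q : Set (M → ℝ)
  D : (M → ℝ) → ℝ
  P : (M → ℝ) → (M → ℝ) → ℝ → M → ℝ
  zero_mem : (0 : M → ℝ) ∈ Q
  D_zero : D 0 = 0
  nonpos : ∀ a ∈ Q, a ≤ 0
  anti : ∀ a ∈ Q, ∀ b ∈ Q, a ≤ b → D b ≤ D a
  maxs_mem : ∀ a ∈ Q, ∀ b ∈ Q, ∀ s : ℝ, 0 ≤ s → (b ⊔ fun x => a x - s) ∈ Q
  P_mem : ∀ a ∈ Q, ∀ b ∈ Q, ∀ s : ℝ, 0 ≤ s → P a b s ∈ Q
  P_le : ∀ a ∈ Q, ∀ b ∈ Q, ∀ s : ℝ, 0 ≤ s → P a b s ≤ a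
  P_le' : ∀ a ∈ Q, ∀ b ∈ Q, ∀ s : ℝ, 0 ≤ s → ∀ x, P a b s x ≤ b x + s
  le_P : ∀ a ∈ Q, ∀ b ∈ Q, ∀ s : ℝ, 0 ≤ s → ∀ f ∈ Q, f ≤ a → (∀ x, f x ≤ b x + s) → f ≤ P a b s
  s3 : ∀ a ∈ Q, ∀ b ∈ Q, ∀ s : ℝ, 0 ≤ s →
    D (b ⊔ fun x => a x - s) + D (P a b s) ≤ D a + D b
  cvx : ConvexOn ℝ Q D

namespace LS

variable {M : Type*} (S : LS M)

/-- constraint sets: lower sets, stable under `max`, compatible with every background -/
structure Cons (F : Set (M → ℝ)) : Prop where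
  low : ∀ f ∈ F, ∀ g, g ≤ f → g ∈ F
  sup : ∀ f ∈ F, ∀ g ∈ F, f ⊔ g ∈ F
  ne : ∀ a ∈ S.Q, ∃ f ∈ S.Q, f ≤ a ∧ f ∈ F

/-- least energy below `a` under the constraint `F` -/
def dp (F : Set (M → ℝ)) (a : M → ℝ) : ℝ := sInf (S.D '' {f | f ∈ S.Q ∧ f ≤ a ∧ f ∈ F})

/-- the envelope of `min a b` -/
def mn (a b : M → ℝ) : M → ℝ := S.P a b 0

/-- `cost v a = E a - E (P (min v a))` -/
def cost (v a : M → ℝ) : ℝ := S.D (S.mn v a) - S.D a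

/-- truncation at depth `s` -/
def tr (s : ℝ) (f : M → ℝ) : M → ℝ := f ⊔ fun _ => -s

variable {S} {F F' : Set (M → ℝ)} {a b f g v w : M → ℝ}

theorem D_nonneg (ha : a ∈ S.Q) : 0 ≤ S.D a :=
  S.D_zero ▸ S.anti a ha 0 S.zero_mem (S.nonpos a ha)

theorem sup_mem (ha : a ∈ S.Q) (hb : b ∈ S.Q) : a ⊔ b ∈ S.Q := by
  have := S.maxs_mem b hb a ha 0 le_rfl
  simp only [sub_zero] at this
  exact this

theorem tr_mem (ha : a ∈ S.Q) {s : ℝ} (hs : 0 ≤ s) : tr s a ∈ S.Q := by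
  have := S.maxs_mem 0 S.zero_mem a ha s hs
  simp only [Pi.zero_apply, zero_sub] at this
  exact this

theorem le_tr (s : ℝ) (f : M → ℝ) : f ≤ tr s f := fun _ => le_max_left _ _

theorem le_tr' (s : ℝ) (f : M → ℝ) (x : M) : -s ≤ tr s f x := le_max_right _ _

theorem tr_le {s : ℝ} (h1 : f ≤ a) (h2 : ∀ x, -s ≤ a x) : tr s f ≤ a :=
  fun x => max_le (h1 x) (h2 x)

theorem mn_mem (ha : a ∈ S.Q) (hb : b ∈ S.Q) : S.mn a b ∈ S.Q := S.P_mem a ha b hb 0 le_rfl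

theorem mn_le (ha : a ∈ S.Q) (hb : b ∈ S.Q) : S.mn a b ≤ a := S.P_le a ha b hb 0 le_rfl

theorem mn_le' (ha : a ∈ S.Q) (hb : b ∈ S.Q) : S.mn a b ≤ b := fun x =>
  (S.P_le' a ha b hb 0 le_rfl x).trans_eq (add_zero _)

theorem le_mn (ha : a ∈ S.Q) (hb : b ∈ S.Q) (hf : f ∈ S.Q) (h1 : f ≤ a) (h2 : f ≤ b) :
    f ≤ S.mn a b := S.le_P a ha b hb 0 le_rfl f hf h1 fun x => by simpa using h2 x

theorem mn_comm (ha : a ∈ S.Q) (hb : b ∈ S.Q) : S.mn a b = S.mn b a :=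
  le_antisymm (le_mn hb ha (mn_mem ha hb) (mn_le' ha hb) (mn_le ha hb))
    (le_mn ha hb (mn_mem hb ha) (mn_le' hb ha) (mn_le hb ha))

theorem mn_eq_left (ha : a ∈ S.Q) (hb : b ∈ S.Q) (h : a ≤ b) : S.mn a b = a :=
  le_antisymm (mn_le ha hb) (le_mn ha hb ha le_rfl h)

theorem mn_eq_right (ha : a ∈ S.Q) (hb : b ∈ S.Q) (h : b ≤ a) : S.mn a b = b :=
  le_antisymm (mn_le' ha hb) (le_mn ha hb hb h le_rfl)

theorem le_P_of (ha : a ∈ S.Q) (hb : b ∈ S.Q) {s σ : ℝ} (hs : 0 ≤ s) (hσ : 0 ≤ σ)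
    (h1 : ∀ x, -σ ≤ a x) (h2 : ∀ x, -σ ≤ b x + s) (x : M) : -σ ≤ S.P a b s x :=
  (le_tr' σ _ x).trans (S.le_P a ha b hb s hs _ (tr_mem (S.P_mem a ha b hb s hs) hσ)
    (tr_le (S.P_le a ha b hb s hs) h1) (fun y => max_le (S.P_le' a ha b hb s hs y) (h2 y)) x)

theorem le_mn_of (ha : a ∈ S.Q) (hb : b ∈ S.Q) {σ : ℝ} (hσ : 0 ≤ σ)
    (h1 : ∀ x, -σ ≤ a x) (h2 : ∀ x, -σ ≤ b x) (x : M) : -σ ≤ S.mn a b x :=
  le_P_of ha hb le_rfl hσ h1 (fun y => by simpa using h2 y) x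

/-- supermodularity -/
theorem supmod (ha : a ∈ S.Q) (hb : b ∈ S.Q) : S.D (a ⊔ b) + S.D (S.mn a b) ≤ S.D a + S.D b := by
  have := S.s3 a ha b hb 0 le_rfl
  simp only [sub_zero] at this
  rw [sup_comm a b]
  exact this

/-- shifted supermodularity against `0` -/
theorem supmod0 (hf : f ∈ S.Q) {s : ℝ} (hs : 0 ≤ s) :
    S.D (tr s f) + S.D (S.P 0 f s) ≤ S.D f := by
  have := S.s3 0 S.zero_mem f hf s hs
  simp only [Pi.zero_apply, zero_sub, S.D_zero, zero_add] at this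
  exact this

theorem cost_nonneg (hv : v ∈ S.Q) (ha : a ∈ S.Q) : 0 ≤ S.cost v a :=
  sub_nonneg.2 (S.anti _ (mn_mem hv ha) _ ha (mn_le' hv ha))

theorem cost_eq_zero (hv : v ∈ S.Q) (ha : a ∈ S.Q) (h : a ≤ v) : S.cost v a = 0 := by
  rw [cost, mn_eq_right hv ha h, sub_self]

theorem cost_of_le (hv : v ∈ S.Q) (ha : a ∈ S.Q) (h : v ≤ a) : S.cost v a = S.D v - S.D a := by
  rw [cost, mn_eq_left hv ha h]

/-- submodularity (contraction) -/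
theorem cost_mono (hv : v ∈ S.Q) (ha : a ∈ S.Q) (hb : b ∈ S.Q) (h : b ≤ a) :
    S.cost v b ≤ S.cost v a := by
  have hu := mn_mem hv ha
  have h1 := supmod hb hu
  have h2 : S.D a ≤ S.D (b ⊔ S.mn v a) :=
    S.anti _ (sup_mem hb hu) _ ha (sup_le h (mn_le' hv ha))
  have h3 : S.D (S.mn v b) ≤ S.D (S.mn b (S.mn v a)) :=
    S.anti _ (mn_mem hb hu) _ (mn_mem hv hb)
      (le_mn hv hb (mn_mem hb hu) ((mn_le' hb hu).trans (mn_le hv ha)) (mn_le hb hu))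
  unfold cost
  linarith

theorem cost_anti (hv : v ∈ S.Q) (hw : w ∈ S.Q) (ha : a ∈ S.Q) (h : v ≤ w) :
    S.cost w a ≤ S.cost v a :=
  sub_le_sub_right (S.anti _ (mn_mem hv ha) _ (mn_mem hw ha)
    (le_mn hw ha (mn_mem hv ha) ((mn_le hv ha).trans h) (mn_le' hv ha))) _

theorem cost_le (hv : v ∈ S.Q) (ha : a ∈ S.Q) : S.cost v a ≤ S.D v := by
  have := cost_mono hv S.zero_mem ha (S.nonpos a ha)
  rwa [cost_of_le hv S.zero_mem (S.nonpos v hv), S.D_zero, sub_zero] at this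

/-- triangle inequality -/
theorem cost_tri (hv : v ∈ S.Q) (hw : w ∈ S.Q) (ha : a ∈ S.Q) :
    S.cost v a ≤ S.cost w a + S.cost v w := by
  have hu := mn_mem hw ha
  have h1 := cost_mono hv hw hu (mn_le hw ha)
  have h2 : S.D (S.mn v a) ≤ S.D (S.mn v (S.mn w a)) :=
    S.anti _ (mn_mem hv hu) _ (mn_mem hv ha)
      (le_mn hv ha (mn_mem hv hu) (mn_le hv hu) ((mn_le' hv hu).trans (mn_le' hw ha)))
  unfold cost at h1 ⊢
  linarith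

theorem bdd (F : Set (M → ℝ)) (a : M → ℝ) :
    BddBelow (S.D '' {f | f ∈ S.Q ∧ f ≤ a ∧ f ∈ F}) :=
  ⟨0, by rintro _ ⟨f, hf, rfl⟩; exact D_nonneg hf.1⟩

theorem dp_le (hf : f ∈ S.Q) (h1 : f ≤ a) (h2 : f ∈ F) : S.dp F a ≤ S.D f :=
  csInf_le (bdd F a) ⟨f, ⟨hf, h1, h2⟩, rfl⟩

namespace Cons

theorem nonempty (hF : S.Cons F) (ha : a ∈ S.Q) :
    (S.D '' {f | f ∈ S.Q ∧ f ≤ a ∧ f ∈ F}).Nonempty := by
  obtain ⟨f, h1, h2, h3⟩ := hF.ne a ha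
  exact ⟨_, f, ⟨h1, h2, h3⟩, rfl⟩

theorem le_dp (hF : S.Cons F) (ha : a ∈ S.Q) {c : ℝ}
    (h : ∀ f ∈ S.Q, f ≤ a → f ∈ F → c ≤ S.D f) : c ≤ S.dp F a :=
  le_csInf (hF.nonempty ha) (by rintro _ ⟨f, hf, rfl⟩; exact h f hf.1 hf.2.1 hf.2.2)

theorem near (hF : S.Cons F) (ha : a ∈ S.Q) {ε : ℝ} (hε : 0 < ε) :
    ∃ f ∈ S.Q, f ≤ a ∧ f ∈ F ∧ S.D f < S.dp F a + ε := by
  obtain ⟨_, ⟨f, hf, rfl⟩, h⟩ := exists_lt_of_csInf_lt (hF.nonempty ha) (lt_add_of_pos_right _ hε)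
  exact ⟨f, hf.1, hf.2.1, hf.2.2, h⟩

theorem le_dp₂ (hF : S.Cons F) (hF' : S.Cons F') (ha : a ∈ S.Q) (hb : b ∈ S.Q) {c : ℝ}
    (h : ∀ f ∈ S.Q, f ≤ a → f ∈ F → ∀ g ∈ S.Q, g ≤ b → g ∈ F' → c ≤ S.D f + S.D g) :
    c ≤ S.dp F a + S.dp F' b := by
  have : c - S.dp F' b ≤ S.dp F a := hF.le_dp ha fun f h1 h2 h3 => by
    have : c - S.D f ≤ S.dp F' b := hF'.le_dp hb fun g k1 k2 k3 => by
      linarith [h f h1 h2 h3 g k1 k2 k3]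
    linarith
  linarith

theorem D_le_dp (hF : S.Cons F) (ha : a ∈ S.Q) : S.D a ≤ S.dp F a :=
  hF.le_dp ha fun f h1 h2 _ => S.anti f h1 a ha h2

theorem dp_nonneg (hF : S.Cons F) (ha : a ∈ S.Q) : 0 ≤ S.dp F a :=
  (D_nonneg ha).trans (hF.D_le_dp ha)

/-- (L7) a feasible background costs nothing -/
theorem dp_eq (hF : S.Cons F) (ha : a ∈ S.Q) (h : a ∈ F) : S.dp F a = S.D a :=
  le_antisymm (dp_le ha le_rfl h) (hF.D_le_dp ha)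

theorem dp_mono (hF' : S.Cons F') (ha : a ∈ S.Q) (h : ∀ f ∈ S.Q, f ∈ F' → f ∈ F) :
    S.dp F a ≤ S.dp F' a :=
  hF'.le_dp ha fun f h1 h2 h3 => dp_le h1 h2 (h f h1 h3)

theorem dp_anti (hF : S.Cons F) (ha : a ∈ S.Q) (h : a ≤ b) : S.dp F b ≤ S.dp F a :=
  hF.le_dp ha fun _ h1 h2 h3 => dp_le h1 (h2.trans h) h3

theorem dp0_le (hF : S.Cons F) (ha : a ∈ S.Q) : S.dp F 0 ≤ S.dp F a :=
  hF.dp_anti ha (S.nonpos a ha)

/-- (L2) -/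
theorem dp_mn (hF : S.Cons F) (hv : v ∈ S.Q) (hw : w ∈ S.Q) :
    S.dp F (S.mn v w) + S.dp F 0 ≤ S.dp F v + S.dp F w := by
  refine hF.le_dp₂ hF hv hw fun f h1 h2 h3 g k1 k2 k3 => ?_
  have e1 : S.dp F (S.mn v w) ≤ S.D (S.mn f g) :=
    dp_le (mn_mem h1 k1) (le_mn hv hw (mn_mem h1 k1) ((mn_le h1 k1).trans h2)
      ((mn_le' h1 k1).trans k2)) (hF.low f h3 _ (mn_le h1 k1))
  have e2 : S.dp F 0 ≤ S.D (f ⊔ g) :=
    dp_le (sup_mem h1 k1) (S.nonpos _ (sup_mem h1 k1)) (hF.sup f h3 g k3)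
  linarith [supmod h1 k1]

/-- (L3) a stronger constraint makes every background cheaper -/
theorem dp_sub (hF : S.Cons F) (hF' : S.Cons F') (h : ∀ f ∈ S.Q, f ∈ F' → f ∈ F) (ha : a ∈ S.Q)
    (hb : b ∈ S.Q) (hab : a ≤ b) : S.dp F' a + S.dp F b ≤ S.dp F a + S.dp F' b := by
  refine hF.le_dp₂ hF' ha hb fun f h1 h2 h3 g k1 k2 k3 => ?_
  have e1 : S.dp F' a ≤ S.D (S.mn f g) :=
    dp_le (mn_mem h1 k1) ((mn_le h1 k1).trans h2) (hF'.low g k3 _ (mn_le' h1 k1))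
  have e2 : S.dp F b ≤ S.D (f ⊔ g) :=
    dp_le (sup_mem h1 k1) (sup_le (h2.trans hab) k2) (hF.sup f h3 g (h g k1 k3))
  linarith [supmod h1 k1]

/-- (L4) -/
theorem dp_le_cost (hF : S.Cons F) (hv : v ∈ S.Q) (ha : a ∈ S.Q) :
    S.dp F v ≤ S.dp F a + S.cost v a := by
  have : S.dp F v - S.cost v a ≤ S.dp F a := hF.le_dp ha fun f h1 h2 h3 => by
    have e1 : S.dp F v ≤ S.D (S.mn v f) :=
      dp_le (mn_mem hv h1) (mn_le hv h1) (hF.low f h3 _ (mn_le' hv h1))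
    have e2 := cost_mono hv ha h1 h2
    unfold cost at e2 ⊢
    linarith
  linarith

/-- (L5) -/
theorem dp_le_add (hF : S.Cons F) (ha : a ∈ S.Q) : S.dp F a ≤ S.dp F 0 + S.D a :=
  (hF.dp_le_cost ha S.zero_mem).trans (by linarith [cost_le ha S.zero_mem])

/-- contraction: `dp F a - D a` is monotone in the background -/
theorem dp_contr (hF : S.Cons F) (ha : a ∈ S.Q) (hb : b ∈ S.Q) (h : b ≤ a) :
    S.dp F b - S.D b ≤ S.dp F a - S.D a := by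
  have := hF.dp_le_cost hb ha
  rw [cost_of_le hb ha h] at this
  linarith

/-- (L6) trivial bound; `F'` is the constraint `F` relaxed by `s` -/
theorem dp_shift (hF : S.Cons F) {s : ℝ} (hs : 0 ≤ s)
    (h : ∀ f ∈ F, ∀ g, (∀ x, g x ≤ f x + s) → g ∈ F') (ha : a ∈ S.Q) (hsa : ∀ x, -s ≤ a x) :
    S.dp F' 0 + S.D a ≤ S.dp F a := by
  refine hF.le_dp ha fun f h1 h2 h3 => ?_
  have hP := S.P_mem 0 S.zero_mem f h1 s hs
  have e1 : S.dp F' 0 ≤ S.D (S.P 0 f s) :=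
    dp_le hP (S.nonpos _ hP) (h f h3 _ (S.P_le' 0 S.zero_mem f h1 s hs))
  have e2 : S.D a ≤ S.D (tr s f) := S.anti _ (tr_mem h1 hs) _ ha (tr_le h2 hsa)
  linarith [supmod0 h1 hs]

/-- LEMMA 2L at finite depth -/
theorem two_l (hF : S.Cons F) {s : ℝ} (hs : 0 ≤ s)
    (h : ∀ f ∈ F, ∀ g, (∀ x, g x ≤ f x + s) → g ∈ F') (hv : v ∈ S.Q) (hw : w ∈ S.Q)
    (hsv : ∀ x, -s ≤ v x) (hsw : ∀ x, -s ≤ w x) :
    S.cost v w ≤ (S.dp F v - S.dp F 0) + (S.dp F w - S.D w - S.dp F' 0) := by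
  have e1 := hF.dp_shift hs h (mn_mem hv hw) (le_mn_of hv hw hs hsv hsw)
  have e2 := hF.dp_mn hv hw
  unfold cost
  linarith

/-- the cost against a near optimal competitor -/
theorem cost_le_dp (hF : S.Cons F) (hv : v ∈ S.Q) (hf : f ∈ S.Q) (hfF : f ∈ F) :
    S.cost v f ≤ (S.dp F v - S.dp F 0) + (S.D f - S.dp F 0) := by
  have : S.cost v f + 2 * S.dp F 0 - S.D f ≤ S.dp F v := hF.le_dp hv fun g k1 k2 k3 => by
    have e1 := supmod k1 hf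
    have e2 : S.dp F 0 ≤ S.D (g ⊔ f) :=
      dp_le (sup_mem k1 hf) (S.nonpos _ (sup_mem k1 hf)) (hF.sup g k3 f hfF)
    have e3 := cost_anti k1 hv hf k2
    have e4 : S.dp F 0 ≤ S.D f := dp_le hf (S.nonpos f hf) hfF
    unfold cost at e3 ⊢
    linarith
  linarith

/-- convexity along convex combinations of constraints -/
theorem dp_convex {F'' : Set (M → ℝ)} (hF : S.Cons F) (hF' : S.Cons F') (ha : a ∈ S.Q)
    {θ θ' : ℝ} (h0 : 0 ≤ θ) (h1 : 0 ≤ θ') (h2 : θ + θ' = 1)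
    (h : ∀ f ∈ F, ∀ g ∈ F', θ • f + θ' • g ∈ F'') :
    S.dp F'' a ≤ θ * S.dp F a + θ' * S.dp F' a := by
  refine le_of_forall_pos_le_add fun ε hε => ?_
  obtain ⟨f, f1, f2, f3, f4⟩ := hF.near ha hε
  obtain ⟨g, g1, g2, g3, g4⟩ := hF'.near ha hε
  have e1 : S.dp F'' a ≤ S.D (θ • f + θ' • g) := by
    refine dp_le (S.cvx.1 f1 g1 h0 h1 h2) (fun x => ?_) (h f f3 g g3)
    have := f2 x
    have := g2 x
    simp only [Pi.add_apply, Pi.smul_apply, smul_eq_mul]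
    have e : a x = θ * a x + θ' * a x := by rw [← add_mul, h2, one_mul]
    nlinarith
  have e2 := S.cvx.2 f1 g1 h0 h1 h2
  simp only [smul_eq_mul] at e2
  have e3 : θ * S.D f ≤ θ * (S.dp F a + ε) := mul_le_mul_of_nonneg_left f4.le h0
  have e4 : θ' * S.D g ≤ θ' * (S.dp F' a + ε) := mul_le_mul_of_nonneg_left g4.le h1
  have e : ε = θ * ε + θ' * ε := by rw [← add_mul, h2, one_mul]
  nlinarith

end Cons

/-- the constraint set of a family of pointwise bounds -/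
def Fe {X : Type*} (W : Set X) (κ : X → M) (γ : X → ℝ) : Set (M → ℝ) :=
  {f | ∀ w ∈ W, f (κ w) ≤ γ w}

theorem cons_Fe {X : Type*} {W : Set X} {κ : X → M} {γ : X → ℝ}
    (h : ∀ a ∈ S.Q, ∃ f ∈ S.Q, f ≤ a ∧ f ∈ Fe W κ γ) : S.Cons (Fe W κ γ) :=
  ⟨fun _ hf _ hg w hw => (hg _).trans (hf w hw),
    fun _ hf _ hg w hw => max_le (hf w hw) (hg w hw), h⟩

end LS

end

end Crest.Agent.X261.Pole
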